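import Vale.Agent.P269L.Lim.Sp
import Vale.Agent.P269.Orb.Vir3

/-!
# The limit of the graphs of the multiples of a section; the Gysin formula
-/

namespace Vale.Agent.P269L

open Set Function Topology Filter Bornology P291Z P269.Orb P269.Ch

theorem conn_cobounded (A : Set ℂ) (hA : A ∈ cobounded ℂ) :
    ∃ B ∈ cobounded ℂ, B ⊆ A ∧ IsPathConnected B := by
  obtain ⟨r, h1, h2⟩ := (isBounded_compl_iff.2 hA).subset_closedBall_lt 0 0
  refine ⟨_, Metric.isBounded_closedBall.compl, compl_subset_comm.1 h2, ?_⟩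
  have h3 := (((convex_Ioi (𝕜 := ℝ) r).prod (convex_univ (E := ℝ))).isPathConnected
    (nonempty_Ioi.prod univ_nonempty)).image
    (f := fun p : ℝ × ℝ => (p.1 : ℂ) * Complex.exp (p.2 * Complex.I)) (by fun_prop)
  convert h3 using 1
  ext z
  rw [mem_compl_iff, mem_closedBall_zero_iff, not_le]
  refine ⟨fun h => ⟨(‖z‖, z.arg), ⟨h, trivial⟩, Complex.norm_mul_exp_arg_mul_I z⟩, ?_⟩
  rintro ⟨p, hp, rfl⟩
  rw [norm_mul, Complex.norm_exp_ofReal_mul_I, mul_one, Complex.norm_of_nonneg (h1.trans hp.1).le]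
  exact hp.1

variable {Y Y' : Sp} {C Z : Type} [TopologicalSpace C] [TopologicalSpace Z]

section gam

variable {E : VB Y} {s : Y.T → E.W}

theorem secC (h : E.IsSec s) (c : ℂ) : E.IsSec fun t => c • s t :=
  h.smul continuous_const fun _ _ => rfl

/-- The graph of `c • s`. -/
noncomputable def gam (h : E.IsSec s) (c : ℂ) : Y.X → E.tot.X := (secC h c).mor.map

/-- The union of the graphs of the sections `s / ε`. -/
def Gr {T W : Type} [SMul ℂ W] (s : T → W) : Set (T × W × ℂ) :=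
  {p | p.2.2 ≠ 0 ∧ p.2.2 • p.2.1 = s p.1}

variable (h : E.IsSec s)

theorem gam_π (c : ℂ) (t : Y.T) :
    gam h c (Y.π t) = E.tot.π (⟨(t, c • s t), (secC h c).mem t⟩ : E.V) := Mor.map_π _ t

theorem proj_gam (c : ℂ) (y : Y.X) : E.proj.map (gam h c y) = y := (secC h c).proj_map y

theorem dg {i : C → E.tot.X} (hi : IsClosedEmbedding i)
    (hC : ∀ v : E.V, (v.1.1, v.1.2, (0 : ℂ)) ∈ closure (Gr s) → E.tot.π v ∈ range i) :
    Dg (cobounded ℂ) (gam h) i := by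
  refine ⟨inferInstance, conn_cobounded,
    (IsOpenQuotientMap.id.prodMap Y.quo).isQuotientMap.continuous_iff.2 ?_,
    fun K hK => ⟨_, hK.image E.proj.map.continuous, fun c y hy => ⟨_, hy, proj_gam h c y⟩⟩, hi,
    fun K hK h1 => ?_⟩
  · exact (E.tot.cont.comp ((continuous_snd.prodMk (continuous_fst.smul
      (h.cont.comp continuous_snd))).subtype_mk _)).congr fun p => (gam_π h p.1 p.2).symm
  · have h2 : ∀ᶠ ε : ℂ in 𝓝 0, ∀ x ∈ K, ε ≠ 0 → ∀ y, gam h ε⁻¹ y ≠ x := by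
      refine hK.eventually_forall_of_forall_eventually fun x hx => ?_
      obtain ⟨v, rfl⟩ := E.tot.surj x
      have h3 : Continuous fun p : ℂ × E.V => (p.2.1.1, p.2.1.2, p.1) := by fun_prop
      have h4 := (IsOpenQuotientMap.id (X := ℂ)).prodMap E.tot.quo
      refine (h4.isOpenMap.map_nhds_eq (x := (0, v)) h4.continuous.continuousAt).ge (mem_map.2 ?_)
      filter_upwards [h3.continuousAt (x := (0, v)) (isClosed_closure.isOpen_compl.mem_nhds
        fun e => let ⟨c, hc⟩ := hC v e; h1 c (hc ▸ hx))] with p hp h0 y e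
      obtain ⟨t, rfl⟩ := Y.surj y
      obtain ⟨ε, u⟩ := p
      obtain ⟨g, hg⟩ := (E.tot.fib _ u).1 ((gam_π h ε⁻¹ t).symm.trans e)
      refine hp (subset_closure ⟨h0, ?_⟩)
      subst hg
      have e : ∀ g : Y.G, ε • g • ε⁻¹ • s t = s (g • t) := fun g => by
        rw [h.eqv, smul_comm g, smul_inv_smul₀ (show ε ≠ 0 from h0)]
      exact e g
    filter_upwards [tendsto_inv₀_cobounded.eventually h2, eventually_ne_cobounded 0]
      with c h3 h4 y hy
    exact h3 _ hy (inv_ne_zero h4) y (by rw [inv_inv])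

/-- The limit of the graphs. -/
def Cone : SubMulAction Y.G E.V where
  carrier := {v | (v.1.1, v.1.2, (0 : ℂ)) ∈ closure (Gr s)}
  smul_mem' g v hv := map_mem_closure (f := fun p : Y.T × E.W × ℂ => (g • p.1, g • p.2.1, p.2.2))
    (by fun_prop) hv fun p hp => ⟨hp.1, (smul_comm _ _ _).symm.trans
      ((congrArg (g • ·) hp.2).trans (h.eqv g _).symm)⟩

theorem isClosed_Cone : IsClosed (Cone h : Set E.V) :=
  isClosed_closure.preimage (f := fun v : E.V => (v.1.1, v.1.2, (0 : ℂ))) (by fun_prop)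

theorem dgC : Dg (cobounded ℂ) (gam h)
    (E.tot.subI (Cone h) (isClosed_Cone h).isLocallyClosed).map :=
  dg h (Sp.isClosedEmbedding_subI (isClosed_Cone h)) fun v hv => (Sp.range_subI _).ge ⟨v, hv, rfl⟩

theorem Dg.ev_eps {X B : Type} [TopologicalSpace X] [TopologicalSpace B] [Nice X] [Nice B]
    {γ : ℂ → B → X} {i : C → X} (hd : Dg (cobounded ℂ) γ i) (β : BM B) {a : Coch X}
    (ha : a ∈ Near i) : ∀ᶠ ε in 𝓝[≠] (0 : ℂ), ev (hd.lm β) (pull i a) = ev β (pull (γ ε⁻¹) a) :=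
  tendsto_inv₀_nhdsNE_zero.eventually (hd.ev_lm β ha)

include h in
theorem zero_of_mem {t : Y.T} {w : E.W} (e : (t, w, (0 : ℂ)) ∈ closure (Gr s)) : s t = 0 :=
  (closure_minimal (t := {p : Y.T × E.W × ℂ | p.2.2 • p.2.1 = s p.1}) (fun _ => And.right)
    (isClosed_eq (by fun_prop) (h.cont.comp continuous_fst)) e).symm.trans (zero_smul ℂ w)

end gam

theorem isOpenEmbedding_pb (E : VB Y) {U : SubMulAction Y.G Y.T} (hU : IsOpen (U : Set Y.T)) :
    IsOpenEmbedding (iso_pb E (Y.subI U hU.isLocallyClosed)).mor.map := by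
  refine (Sp.isQuo _).isOpenEmbedding_map (Sp.isQuo _) (Mor.map_π _) (fun g _ => ⟨g, rfl⟩)
    ⟨IsEmbedding.subtypeVal.of_comp_iff.1 ((IsEmbedding.subtypeVal.prodMap IsEmbedding.id).comp
      IsEmbedding.subtypeVal), ?_⟩
  convert hU.preimage E.proj.cf using 1
  exact Set.ext fun v => ⟨by rintro ⟨x, rfl⟩; exact x.1.1.2, fun e => ⟨⟨(⟨_, e⟩, v.1.2), v.2⟩, rfl⟩⟩

variable (k : KP Y)

theorem obs_of_mem {t : Y.T} {w : k.P.W} (e : (t, w, (0 : ℂ)) ∈ closure (Gr k.s)) :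
    t ∈ k.Zs ∧ w ∈ k.obs t := by
  have h1 : t ∈ k.Zs := show k.s t ∈ k.van t from zero_of_mem k.sec e ▸ zero_mem _
  refine ⟨h1, k.cone t w h1 (map_mem_closure (f := fun p : Y.T × k.P.W × ℂ => (p.1, p.2.1))
    (by fun_prop) e fun p hp => ⟨p.2.2⁻¹, ?_⟩)⟩
  rw [← hp.2, inv_smul_smul₀ hp.1, sub_self]
  exact zero_mem _

/-- **The Gysin formula**: the virtual class is the intersection of the limit of the graphs with
the zero section of the obstruction bundle. -/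
theorem ev_vir (hv : ∀ t, k.van t = ⊥) {i : C → k.P.tot.X}
    (hd : Dg (cobounded ℂ) (gam k.sec) i) {m : Mor Y' Y}
    (hm : ∀ t, m.f t ∈ k.Zs) {O : VB Y'} {A : Y'.T → O.W →ₗ[ℂ] k.P.W} (hA : Hom m O k.P A)
    (ho : ∀ t, ∀ w ∈ O.F t, A t w ∈ k.obs (m.f t)) (hi : ∀ t, ∀ w ∈ O.F t, A t w = 0 → w = 0)
    (hr : O.r = k.r) {t : Coch O.tot.X} (ht : IsThom O.Z O.ch t) {j : C → O.tot.X}
    (hj : Continuous j) (hij : ∀ c, hA.mor.map (j c) = i c) {z : Z → Y.X} (hz : IsEmbedding z)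
    (hz' : range z = k.Z) {p : C → Z} (hp : ∀ c, z (p c) = m.map (O.proj.map (j c)))
    (β : BM Y.X) {a : Coch Z} (ha : a ∈ Zc Z) :
    ev (k.vir z β) a = ev (hd.lm β) (pull p a * pull j t) := by
  have := hd.ne
  obtain ⟨U, hU, E, M, h1, h2, h3, -⟩ := k.exists_model
  have hZ := KP.IsZ.of_range hz hz'
  have cp : Continuous p := hz.continuous_iff.2 (((m.map.continuous.comp
    O.proj.map.continuous).comp hj).congr fun c => (hp c).symm)
  have o2 := isOpenEmbedding_pb k.P hU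
  obtain ⟨θ, -, hθ⟩ := exists_pull_deg o2.injective (E.th_deg.pull h2.hom.mor.map)
  obtain ⟨b, b1, b2, b3⟩ := exists_near' hZ.emb ha (Sp.isOpenEmbedding_subI hU).isOpen_range
    ((image_subset_range _ _).trans (hz'.le.trans (Sp.subset_range_subI _ fun _ e =>
      h1 (KP.mem_Z.1 e))))
  have b4 : ∀ t, Y.π t ∈ supp b → t ∈ U := fun t e =>
    (Y.isQuo.mem_image fun g _ => U.smul_mem g).1 (Sp.range_subI _ ▸ b2 e)
  have f0 : ∀ (v : k.P.V) (e : v.1.1 ∈ U), k.P.tot.π v = (iso_pb k.P (Y.subI U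
      hU.isLocallyClosed)).mor.map (Sp.π _ (⟨(⟨v.1.1, e⟩, v.1.2), v.2⟩ :
        (k.P.pb (Y.subI U hU.isLocallyClosed)).V)) := fun v e =>
    ((iso_pb k.P (Y.subI U hU.isLocallyClosed)).mor.map_π ⟨(⟨v.1.1, e⟩, v.1.2), v.2⟩).symm
  have f1 : ∀ v : k.P.V, v.1.1 ∈ U → δ θ ∈ Van (k.P.tot.π v) := fun v e => by
    rw [f0 v e]
    refine van_of_pull o2 ?_
    rw [← δ_pull, hθ]
    exact supp_eq_empty.1 (cocycle_pull h2.hom.mor.map.continuous E.th_cocycle) _
  have f2 : ∀ (v : k.P.V) (e : v.1.1 ∈ U), k.P.tot.π v ∈ supp θ → M ⟨_, e⟩ v.1.2 = 0 :=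
    fun v e e' => by
      rw [f0 v e] at e'
      have := E.th_supp (supp_pull h2.hom.mor.map.continuous _
        (hθ ▸ by_contra fun h => van_of_pull o2 h e'))
      exact VB.mk_mem_Z.1 (h2.hom.mor.map_π ⟨(⟨v.1.1, e⟩, v.1.2), v.2⟩ ▸ this)
  have f3 : ∀ v : k.P.V, v.1.2 = 0 → k.P.zero.map (Y.π v.1.1) = k.P.tot.π v := fun v e =>
    (Mor.map_π _ _).trans (congrArg _ (Subtype.ext (Prod.ext rfl e.symm)))
  have f4 : ∀ v : k.P.V, k.P.tot.π v ∈ supp (pull k.P.proj.map b * θ) → Y.π v.1.1 ∈ supp b ∧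
      k.P.tot.π v ∈ supp θ := fun v e => ⟨k.P.proj.map_π v ▸
    supp_pull k.P.proj.map.continuous b (supp_mul _ _ e).1, (supp_mul _ _ e).2⟩
  have f5 : ∀ c : ℂ, c ≠ 0 → ∀ t, Y.π t ∈ supp b → gam k.sec c (Y.π t) ∈ supp θ → t ∈ k.Zs :=
    fun c hc t e e' => (h3 ⟨t, b4 t e⟩).1 ((smul_eq_zero_iff_right hc).1
      ((map_smul _ _ _).symm.trans (f2 _ (b4 t e) (gam_π k.sec c t ▸ e'))))
  have f6 : ∀ c, ∃ u : O.tot.T, j c = O.tot.π u ∧ i c = k.P.tot.π (hA.mor.f u) ∧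
      z (p c) = Y.π (m.f u.1.1) := fun c => by
    obtain ⟨u, hu⟩ := O.tot.surj (j c)
    exact ⟨u, hu.symm, by rw [← hij, ← hu, Mor.map_π], by
      rw [hp, ← hu, Mor.map_π, Mor.map_π]; rfl⟩
  obtain ⟨c, ⟨-, c1⟩, c0⟩ := ((hd.ev_lm' β (a := pull k.P.proj.map b * θ)
    (b1.1.image k.P.zero.map.continuous) (fun c e => by
      obtain ⟨u, -, e1, -⟩ := f6 c
      rw [e1] at e ⊢
      refine ⟨_, (f4 _ e).1, f3 _ ?_⟩
      exact (Submodule.mem_bot ℂ).1 (hv _ ▸ h2.ker ⟨_, h1 (hm _)⟩ (hm _) _ (ho _ _ u.2)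
        (f2 _ (h1 (hm _)) (f4 _ e).2)))
    ((eventually_ne_cobounded 0).mono fun c hc y e => by
      obtain ⟨t, rfl⟩ := Y.surj y
      rw [gam_π] at e ⊢
      refine ⟨_, (f4 _ e).1, f3 _ ?_⟩
      have := f5 c hc t (f4 _ e).1 (gam_π k.sec c t ▸ (f4 _ e).2)
      change c • k.s t = 0
      rw [show k.s t = 0 from (hv t).le this, smul_zero])
    fun c => by
      obtain ⟨u, -, e1, e2⟩ := f6 c
      rw [e1]
      refine van_δ_mul (van_δ_pull k.P.proj.map.continuous.continuousAt ?_) (f1 _ (h1 (hm _)))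
      rw [Mor.map_π]
      exact e2 ▸ b1.2 (p c)).and (eventually_ne_cobounded 0)).exists
  have h4 : k.Model (Y.subI U hU.isLocallyClosed) E fun t => c • M t :=
    ⟨⟨⟨fun t w hw => (E.F t).smul_mem c (h2.hom.mem t w hw), h2.hom.cont.const_smul c,
      fun g t w hw => (congrArg (c • ·) (h2.hom.eqv g t w hw)).trans (E.comm.smul_comm _ _ _).symm⟩,
      fun t w hw => (congrArg (c • ·) (h2.van t w hw)).trans (smul_zero c),
      fun t e w hw e' => h2.ker t e w hw ((smul_eq_zero_iff_right c0).1 e')⟩, h2.rank⟩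
  have h5 : LCoh k.Z k.eul (pull (gam k.sec c) θ) := by
    refine KP.lcoh_of_sub hU (fun _ e => h1 (KP.mem_Z.1 e)) ?_
    have s1 := (secC k.sec c).pb (Y.subI U hU.isLocallyClosed)
    rw [pull_pull, show gam k.sec c ∘ _ = _ from ((iso_pb k.P
      (Y.subI U hU.isLocallyClosed)).toHom.sec_map s1 (secC k.sec c) fun _ => rfl).symm,
      ← pull_pull, hθ, pull_pull, h2.hom.sec_map s1 h4.isSec fun t => map_smul _ _ _,
      ← pull_pull, Mor.pull_id]
    exact h4.lcoh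
  have h6 : Hom (m.cod U hU.isLocallyClosed fun t => h1 (hm t)) O
      (k.P.pb (Y.subI U hU.isLocallyClosed)) A := ⟨hA.mem, hA.cont, hA.eqv⟩
  have h7 := Iso.of_inj (h2.hom.comp h6) (fun t w hw e => hi t w hw ((Submodule.mem_bot ℂ).1
    (hv _ ▸ h2.ker ⟨_, h1 (hm t)⟩ (hm t) _ (ho t w hw) e))) (hr.trans h2.rank.symm)
  have h8 : pull i θ = pull j (pull h7.mor.map E.th) := by
    rw [show i = (iso_pb k.P (Y.subI U hU.isLocallyClosed)).mor.map ∘ h6.mor.map ∘ j from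
      funext fun c => by
        obtain ⟨u, e0, e1, -⟩ := f6 c
        rw [comp_apply, comp_apply, e0, e1, Mor.map_π, Mor.map_π]
        rfl, ← pull_pull, hθ, pull_pull, pull_pull]
    refine congrArg (pull · _) (funext fun c => ?_)
    obtain ⟨u, e0, -⟩ := f6 c
    simp only [comp_apply, e0, Mor.map_π]
    rfl
  rw [hZ.vir_eq h5, ← ev_congr _ b3, ev_lgys' hZ.emb (hZ.lco' h5) β b1 fun y e e' => by
    obtain ⟨t, rfl⟩ := Y.surj y
    exact hz' ▸ KP.mem_Z.2 (f5 c c0 t e (supp_pull (hd.cont' c) _ e'))]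
  rw [map_mul, map_mul, pull_pull, pull_pull, show k.P.proj.map ∘ gam k.sec c = id from
    funext (proj_gam k.sec c), pull_id, h8, show k.P.proj.map ∘ i = z ∘ p from funext fun c => by
      obtain ⟨u, -, e1, e2⟩ := f6 c
      rw [comp_apply, comp_apply, e1, e2, Mor.map_π]
      rfl, ← pull_pull] at c1
  rw [← c1, ev_congr _ fun x => van_mul_congr (van_pull_sub cp.continuousAt (b3 _)) (van_refl _ _),
    ev_eq, ev_eq, cls_mul_congr ((O.isOVB.thom_unique ht (h7.isThom E.isThom)).pull hj)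
      (hd.emb.isCompact_preimage ((ha.1.image hz.continuous).image k.P.zero.map.continuous))
      (fun c e => ?_) fun x _ => van_δ_pull cp.continuousAt (supp_eq_empty.1 ha.2 _)]
  obtain ⟨u, e0, e1, e2⟩ := f6 c
  refine ⟨_, ⟨_, supp_pull cp _ e.1, rfl⟩, ?_⟩
  rw [e1, e2]
  exact f3 (hA.mor.f u) ((congrArg (A _) (VB.mk_mem_Z.1 (e0 ▸ e.2))).trans (map_zero _))

/-- The presentation on the total space of `van`, in which nothing is divided out. -/
noncomputable def kM : KP k.vanB.tot where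
  P := k.P.pb k.vanB.proj
  van _ := ⊥
  obs y := k.obs (k.vanB.proj.f y)
  s y := k.s y.1.1 - y.1.2
  v := 0
  r := k.v + k.r
  sec := (k.sec.pb k.vanB.proj).sub ⟨fun y => k.van_le _ y.2,
    continuous_snd.comp continuous_subtype_val, fun _ _ => rfl⟩
  van_closed := isClosed_eq continuous_snd continuous_const
  van_rank _ := finrank_bot ℂ _
  van_inv g t w hw := by rw [(Submodule.mem_bot ℂ).1 hw, smul_zero]; exact zero_mem _
  van_le _ := bot_le
  obs_closed := by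
    have c1 : Continuous fun x : k.vanB.V × k.P.W => k.s x.1.1.1 :=
      k.sec.cont.comp (by fun_prop)
    have h := (isClosed_eq (c1.sub (g := fun x => x.1.1.2) (by fun_prop))
      (continuous_const (y := 0))).inter (k.obs_closed.preimage
        (f := fun x : k.vanB.V × k.P.W => (x.1.1.1, x.2)) (by fun_prop))
    refine (congrArg IsClosed (Set.ext fun x => ?_)).mp h
    exact ⟨fun h => ⟨h.1, h.2.2⟩, fun h => ⟨h.1, (sub_eq_zero.1 h.1).symm.subst x.1.2, h.2⟩⟩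
  obs_rank t h := (k.obs_rank _ ((sub_eq_zero.1 h).symm.subst t.2)).trans (zero_add _).symm
  obs_inv g t w h h' := k.obs_inv g _ _ ((sub_eq_zero.1 h).symm.subst t.2) h'
  le_obs _ _ := bot_le
  obs_le t h := k.obs_le _ ((sub_eq_zero.1 h).symm.subst t.2)
  cone t w h h' := k.cone _ w ((sub_eq_zero.1 h).symm.subst t.2) (map_mem_closure
    (f := fun x : k.vanB.V × k.P.W => (x.1.1.1, x.2)) (by fun_prop) h' (by
      rintro ⟨y, u⟩ ⟨c, hc⟩
      have h1 : ∀ a b e : k.P.W, a - c • (b - e) = 0 → a - c • b = (-c) • e := fun a b e h => by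
        rw [sub_eq_zero.1 h, smul_sub, sub_sub_cancel_left, neg_smul]
      exact ⟨c, (h1 _ _ _ hc).symm.subst ((k.van _).smul_mem _ y.2)⟩))

theorem mem_Zs_kM {y : k.vanB.V} : y ∈ (kM k).Zs ↔ k.s y.1.1 = y.1.2 :=
  sub_eq_zero (G := k.P.W)

theorem vir_kM {z : Z → Y.X} (hz : k.IsZ z) {z' : Z → k.vanB.tot.X} (hz' : (kM k).IsZ z')
    (e : ∀ x, k.vanB.proj.map (z' x) = z x) (β : BM k.vanB.tot.X) :
    (kM k).vir z' β = k.vir z (gys k.vanB.zero.map k.vanB.th β) := by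
  have h0 : ⇑(Mor.id k.vanB.tot).map = id := funext (Mor.map_id _)
  have := KP.Hom.vir_tot (k' := kM k) (k := k) (V := k.vanB) (φ := Mor.id _)
    (A := fun _ => LinearMap.id) (ζ := k.s) (D := fun _ => -LinearMap.id)
    ⟨Hom.of_continuous (fun _ _ h => h) continuous_snd fun _ _ _ _ => rfl,
      fun t w hw => (show w = 0 from hw) ▸ zero_mem _,
      fun t => (sub_sub_cancel_left (k.s t.1.1) t.1.2).symm.subst (neg_mem t.2), fun _ _ _ h => h⟩
    (h0 ▸ IsOpenEmbedding.id) k.sec.cont.continuousOn (fun g t _ => k.sec.eqv g t)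
    (fun _ ht => ht) (fun t _ v w h => ?_) (Hom.of_continuous
      (fun t w h => neg_mem (k.van_le _ h)) (continuous_snd.neg (G := k.P.W))
      fun (g : Y.G) _ (w : k.P.W) _ => (smul_neg g w).symm)
    (fun t ht => ((mem_Zs_kM k).1 ht).symm) (fun _ _ v _ h => neg_eq_zero.1 h)
    (fun t _ w _ h => ⟨-w, neg_mem h, (congrArg (w - ·) (neg_neg w)).trans (sub_self w)⟩) rfl hz
    hz' (fun x => h0 ▸ e x) β
  · rwa [h0, ← push_id' (res id _), push_res_homeo IsHomeomorph.id] at this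
  · refine closure_minimal (t := {x : k.vanB.V × k.P.W × k.P.W | x.2.2 - -x.2.1 = 0}) ?_
      (isClosed_eq (by fun_prop) continuous_const) h
    rintro ⟨y, a, b⟩ ⟨-, c, h1, h2⟩
    have h3 : ∀ a b d e : k.P.W, a = c • (e - d) → b - c • (d - e) = 0 → b - -a = 0 :=
      fun a b d e h1 h2 => by rw [h1, ← smul_neg, neg_sub, h2]
    exact h3 _ _ _ _ h1 h2

/-- The lift of a map to the zero set. -/
noncomputable def mM (m : Mor Y' Y) (hm : ∀ t, m.f t ∈ k.Zs) : Mor Y' k.vanB.tot :=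
  ⟨m.ρ, fun t => (⟨(m.f t, k.s (m.f t)), hm t⟩ : k.vanB.V), m.cρ,
    (m.cf.prodMk (k.sec.cont.comp m.cf)).subtype_mk _, fun g t => Subtype.ext
      (Prod.ext (m.eqv g t) ((congrArg k.s (m.eqv g t)).trans (k.sec.eqv _ _)))⟩

theorem homM {m : Mor Y' Y} (hm : ∀ t, m.f t ∈ k.Zs) {O : VB Y'} {A : Y'.T → O.W →ₗ[ℂ] k.P.W}
    (hA : Hom m O k.P A) : Hom (mM k m hm) O (kM k).P A := ⟨hA.mem, hA.cont, hA.eqv⟩

/-- **The Gysin formula** for the cone of the section `s x - κ` on the total space of `van`. -/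
theorem ev_virM {i : C → (kM k).P.tot.X} (hd : Dg (cobounded ℂ) (gam (kM k).sec) i) {m : Mor Y' Y}
    (hm : ∀ t, m.f t ∈ k.Zs) {O : VB Y'} {A : Y'.T → O.W →ₗ[ℂ] k.P.W} (hA : Hom m O k.P A)
    (ho : ∀ t, ∀ w ∈ O.F t, A t w ∈ k.obs (m.f t)) (hi : ∀ t, ∀ w ∈ O.F t, A t w = 0 → w = 0)
    (hr : O.r = k.v + k.r) {t : Coch O.tot.X} (ht : IsThom O.Z O.ch t) {j : C → O.tot.X}
    (hj : Continuous j) (hij : ∀ c, (homM k hm hA).mor.map (j c) = i c) {z : Z → Y.X}
    (hz : IsEmbedding z) (hz' : range z = k.Z) {p : C → Z}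
    (hp : ∀ c, z (p c) = m.map (O.proj.map (j c))) (β : BM k.vanB.tot.X) {a : Coch Z}
    (ha : a ∈ Zc Z) : ev (k.vir z (gys k.vanB.zero.map k.vanB.th β)) a =
      ev (hd.lm β) (pull p a * pull j t) := by
  obtain ⟨ζ, h1, h2⟩ := k.vanB.exists_ext_sec k.isClosed_Zs (fun g t => k.smul_mem_Zs g t)
    k.sec.cont.continuousOn (fun g t _ => k.sec.eqv g t) fun _ h => h
  have h3 := h1.isClosedEmbedding.isEmbedding.comp hz
  have h4 : ∀ t (e : t ∈ k.Zs), h1.mor.map (Y.π t) =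
      k.vanB.tot.π (⟨(t, k.s t), e⟩ : k.vanB.V) := fun t e =>
    (Mor.map_π _ _).trans (congrArg _ (Subtype.ext (Prod.ext rfl (h2 t e))))
  have h5 : range (h1.mor.map ∘ z) = (kM k).Z := by
    rw [range_comp, hz']
    refine Subset.antisymm ?_ ?_
    · rintro _ ⟨_, ⟨t, e, rfl⟩, rfl⟩
      exact ⟨_, (mem_Zs_kM k).2 rfl, (h4 t e).symm⟩
    · rintro _ ⟨y, e, rfl⟩
      have e' := (mem_Zs_kM k).1 e
      have e'' : y.1.1 ∈ k.Zs := e'.symm.subst (motive := (· ∈ k.van _)) y.2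
      exact ⟨_, ⟨_, e'', rfl⟩, (h4 _ e'').trans (congrArg _ (Subtype.ext (Prod.ext rfl e')))⟩
  rw [← vir_kM k (.of_range hz hz') (.of_range h3 h5) fun x => h1.proj_map _]
  refine ev_vir (kM k) (fun _ => rfl) hd (fun _ => (mem_Zs_kM k).2 rfl) (homM k hm hA) ho hi hr ht
    hj hij h3 h5 (fun c => ?_) β ha
  obtain ⟨u, hu⟩ := O.tot.surj (j c)
  rw [comp_apply, hp, ← hu, O.proj.map_π, m.map_π, (mM k m hm).map_π]
  exact h4 _ (hm _)

end Vale.Agent.P269L
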