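import Vale.Agent.P269.Orb.Calc

/-!
# Specialisation of Borel-Moore classes along a degenerating family of maps
-/

namespace Vale.Agent.P269L

open Set Function Topology Filter Vale.Agent.P291Z unitInterval

variable {X Y C T : Type} [TopologicalSpace X] [TopologicalSpace Y] [TopologicalSpace C]
  [TopologicalSpace T]

/-- The maps `γ s : Y → X` degenerate along `l` into the closed subspace `i : C → X`. -/
structure Dg (l : Filter T) (γ : T → Y → X) (i : C → X) : Prop where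
  ne : l.NeBot
  conn : ∀ A ∈ l, ∃ B ∈ l, B ⊆ A ∧ IsPathConnected B
  cont : Continuous fun p : T × Y => γ p.1 p.2
  prop : ∀ K, IsCompact K → ∃ L, IsCompact L ∧ ∀ s y, γ s y ∈ K → y ∈ L
  emb : IsClosedEmbedding i
  lim : ∀ K, IsCompact K → (∀ z, i z ∉ K) → ∀ᶠ s in l, ∀ y, γ s y ∉ K

namespace Dg

variable {l : Filter T} {γ : T → Y → X} {i : C → X} (h : Dg l γ i)
include h

theorem cont' (s : T) : Continuous (γ s) := h.cont.comp (Continuous.prodMk_right s)

theorem cpt (s : T) {a : Coch X} (ha : IsCompact (supp a)) : IsCompact (supp (pull (γ s) a)) :=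
  let ⟨_, h1, h2⟩ := h.prop _ ha
  isCompact_supp_of_subset h1 fun y hy => h2 s y (supp_pull (h.cont' s) a hy)

theorem van {a : Coch X} (ha : IsCompact (supp a)) (hv : ∀ z, a ∈ Van (i z)) :
    ∀ᶠ s in l, ∀ y, a ∈ Van (γ s y) := h.lim _ ha hv

theorem zc' (s : T) {a : Coch X} (ha : IsCompact (supp a)) (hv : ∀ y, δ a ∈ Van (γ s y)) :
    pull (γ s) a ∈ Zc Y :=
  ⟨h.cpt s ha, supp_eq_empty.2 fun y => by
    rw [δ_pull]; exact Van.pull (h.cont' s).continuousAt (hv y)⟩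

theorem van_δ {a : Coch X} (ha : a ∈ Near i) : ∀ᶠ s in l, ∀ y, δ a ∈ Van (γ s y) :=
  h.van (isCompact_supp_of_subset ha.1 (supp_δ a)) ha.2

theorem zc {a : Coch X} (ha : a ∈ Near i) : ∀ᶠ s in l, pull (γ s) a ∈ Zc Y :=
  (h.van_δ ha).mono fun s hs => h.zc' s ha.1 hs

variable [Nice Y]

theorem const {a : Coch X} (ha : a ∈ Near i) : ∃ c, ∀ᶠ s in l, cls (pull (γ s) a) = c := by
  obtain ⟨B, h1, h2, s₀, h3, h4⟩ := h.conn _ (h.van_δ ha)
  refine ⟨cls (pull (γ s₀) a), mem_of_superset h1 fun s hs => ?_⟩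
  obtain ⟨p, hp⟩ := h4 hs
  obtain ⟨L, h5, h6⟩ := h.prop _ ha.1
  have hc : Continuous fun q : I × Y => γ (p q.1) q.2 :=
    h.cont.comp ((p.continuous.comp continuous_fst).prodMk continuous_snd)
  have := cls_pull_eq_of_homotopy (X := Y) (Y := I × Y) (h := id) continuous_id
    (a := pull (fun q : I × Y => γ (p q.1) q.2) a)
    (supp_eq_empty.2 fun q => by
      rw [δ_pull]; exact Van.pull hc.continuousAt (h2 (hp q.1) q.2))
    (isCompact_supp_of_subset (isCompact_univ.prod h5) fun q hq =>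
      ⟨trivial, h6 _ _ (supp_pull hc a hq)⟩) (f := Prod.mk 0) (g := Prod.mk 1) (fun _ => rfl)
    fun _ => rfl
  rw [pull_pull, pull_pull] at this
  simpa only [mem_ofPred_eq, comp_def, p.source, p.target] using this.symm

variable [Nice X]

theorem exists_sp : ∃ f : Hc C →ₗ[ℂ] Hc Y, ∀ a ∈ Near i,
    ∀ᶠ s in l, f (cls (pull i a)) = cls (pull (γ s) a) := by
  have := h.ne
  choose c hc using fun a : Near i => h.const a.2
  obtain ⟨f, hf⟩ := Hc.exists_lift (Near i) (pull i).toLinearMap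
    { toFun := c
      map_add' := fun a b => (((hc (a + b)).and ((hc a).and (hc b))).and
        ((h.zc a.2).and (h.zc b.2))).exists.elim fun s hs => by
          rw [← hs.1.1, ← hs.1.2.1, ← hs.1.2.2, ← cls_add hs.2.1 hs.2.2, ← map_add]; rfl
      map_smul' := fun r a => (((hc (r • a)).and (hc a)).and (h.zc a.2)).exists.elim fun s hs => by
          rw [← hs.1.1, ← hs.1.2, RingHom.id_apply, ← cls_smul r hs.2, ← map_smul]; rfl }
    (fun a ha => Near.pull_Zc (IsPr.of_isClosedEmbedding h.emb) ha) (near_surj_Bc h.emb)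
    fun a ha => by
      obtain ⟨b, h1, h2⟩ := exists_prim_near h.emb a.2 ha
      obtain ⟨s, h3, h4⟩ := ((hc a).and (h.van (isCompact_supp_of_subset
        (a.2.1.union h1) ((supp_sub _ _).trans (union_subset_union_right _ (supp_δ b)))) h2)).exists
      refine h3.symm.trans (cls_of_mem_Bc ⟨pull (γ s) b, h.cpt s h1, supp_eq_empty.2 fun y => ?_⟩)
      rw [δ_pull, ← map_sub]
      exact Van.pull (h.cont' s).continuousAt (h4 y)
  exact ⟨f, fun a ha => (hc ⟨a, ha⟩).mono fun s hs => (hf ⟨a, ha⟩).trans hs.symm⟩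

/-- The specialisation map. -/
noncomputable def sp : Hc C →ₗ[ℂ] Hc Y := h.exists_sp.choose

theorem sp_cls {a : Coch X} (ha : a ∈ Near i) :
    ∀ᶠ s in l, h.sp (cls (pull i a)) = cls (pull (γ s) a) := h.exists_sp.choose_spec a ha

theorem sp_deg {k : ℤ} {c : Hc C} (hc : c ∈ Hc.deg C k) : h.sp c ∈ Hc.deg Y k := by
  have := h.ne
  obtain ⟨a, h1, h2, rfl⟩ := cls_surj_near h.emb hc
  obtain ⟨s, hs⟩ := (h.sp_cls h1).exists
  rw [hs]
  exact cls_mem_deg (h2.pull _)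

/-- The same for cochains whose support is compact along the family only. -/
theorem sp_cls' {a : Coch X} {K : Set X} (hK : IsCompact K) (h1 : ∀ z, i z ∈ supp a → i z ∈ K)
    (h2 : ∀ᶠ s in l, ∀ y, γ s y ∈ supp a → γ s y ∈ K) (h3 : ∀ z, δ a ∈ Van (i z)) :
    ∀ᶠ s in l, pull (γ s) a ∈ Zc Y ∧ h.sp (cls (pull i a)) = cls (pull (γ s) a) := by
  obtain ⟨N, c1, -, c3⟩ := exists_cut_compact hK isOpen_univ (subset_univ _) a
  have c4 : ∀ z, a - cut N a ∈ Van (i z) := fun z => c3 _ (or_iff_not_imp_right.2 fun e =>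
    h1 z (not_not.1 e))
  have hN : cut N a ∈ Near i := ⟨c1, fun z => by
    have := (Van _).sub_mem (h3 z) (Van.δ (c4 z))
    rwa [map_sub, sub_sub_cancel] at this⟩
  filter_upwards [h.sp_cls hN, h.zc hN, h2] with s e1 e2 e3
  have c5 : ∀ y, pull (γ s) a - pull (γ s) (cut N a) ∈ Van y := fun y => by
    rw [← map_sub]
    exact Van.pull (h.cont' s).continuousAt (c3 _ (or_iff_not_imp_right.2 fun e =>
      e3 y (not_not.1 e)))
  refine ⟨Zc.of_sub_Bc e2 (mem_Bc_of_null c5), ?_⟩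
  rw [cls_eq_of_null c5, ← e1]
  refine congrArg _ (cls_eq_of_null fun z => ?_)
  rw [← map_sub]
  exact Van.pull h.emb.continuous.continuousAt (c4 z)

/-- The limit of the classes `(γ s)_* β`. -/
noncomputable def lm : BM Y →ₗ[ℂ] BM C := h.sp.dualMap

theorem ev_lm (β : BM Y) {a : Coch X} (ha : a ∈ Near i) :
    ∀ᶠ s in l, ev (h.lm β) (pull i a) = ev β (pull (γ s) a) :=
  (h.sp_cls ha).mono fun s hs => by rw [ev_eq, ev_eq, ← hs]; rfl

theorem ev_lm' (β : BM Y) {a : Coch X} {K : Set X} (hK : IsCompact K)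
    (h1 : ∀ z, i z ∈ supp a → i z ∈ K) (h2 : ∀ᶠ s in l, ∀ y, γ s y ∈ supp a → γ s y ∈ K)
    (h3 : ∀ z, δ a ∈ Van (i z)) :
    ∀ᶠ s in l, pull (γ s) a ∈ Zc Y ∧ ev (h.lm β) (pull i a) = ev β (pull (γ s) a) :=
  (h.sp_cls' hK h1 h2 h3).mono fun s hs => ⟨hs.1, by rw [ev_eq, ev_eq, ← hs.2]; rfl⟩

theorem lm_deg {k : ℤ} {β : BM Y} (hβ : BM.IsDeg k β) : BM.IsDeg k (h.lm β) :=
  BM.isDeg_iff.2 fun j hj _ hc => BM.isDeg_iff.1 hβ j hj _ (h.sp_deg hc)

end Dg

end Vale.Agent.P269L
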